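import Mathlib

namespace Vale.Agent.P308

open Equiv

variable {V : Type*} [Fintype V] [DecidableEq V] (G : SimpleGraph V)

/-- a near-perfect matching coded as an involution with exactly the two fixed points `u`, `v` -/
def IsNP (σ : Perm V) (u v : V) : Prop :=
  u ≠ v ∧ (∀ x, σ (σ x) = x) ∧ (∀ x, σ x = x ↔ x = u ∨ x = v) ∧ ∀ x, σ x ≠ x → G.Adj x (σ x)

/-- a perfect matching coded as an involution -/
def IsPP (τ : Perm V) : Prop := (∀ x, τ (τ x) = x) ∧ ∀ x, G.Adj x (τ x)

/-- an augmenting sequence: `a i` are the even vertices of an augmenting path -/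
def Aug (σ : Perm V) (u v : V) (l : ℕ) (a : ℕ → V) : Prop :=
  a 0 = u ∧ a (l + 1) = v ∧ (∀ i ≤ l, G.Adj (a i) (σ (a (i + 1)))) ∧
  ∀ i ≤ l + 1, ∀ j ≤ l + 1, i ≠ j → a i ≠ a j ∧ a i ≠ σ (a j)

variable {G}

lemma key_conj {σ τ : Perm V} (hσ : ∀ x, σ (σ x) = x) (hτ : ∀ x, τ (τ x) = x) (j : ℕ) :
    ∀ x, ((σ * τ) ^ j) (σ (((σ * τ) ^ j) x)) = σ x := by
  induction j with
  | zero => intro x; simp
  | succ j ih =>
    intro x
    have h1 : ((σ * τ) ^ (j + 1)) x = ((σ * τ) ^ j) ((σ * τ) x) := by
      rw [pow_succ]; rfl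
    have h2 : ∀ y, ((σ * τ) ^ (j + 1)) y = (σ * τ) (((σ * τ) ^ j) y) := by
      intro y; rw [pow_succ']; rfl
    rw [h1, h2, ih]
    simp [Perm.mul_apply, hσ, hτ]

lemma exists_aug {σ τ : Perm V} {u v : V} (hN : IsNP G σ u v) (hP : IsPP G τ) :
    ∃ l a, Aug G σ u v l a := by
  obtain ⟨huv, hσ, hfix, hadj⟩ := hN
  obtain ⟨hτ, hτadj⟩ := hP
  set π : Perm V := σ * τ with hπ
  have key := key_conj hσ hτ
  have hσu : σ u = u := (hfix u).2 (Or.inl rfl)
  have hex : ∃ T, 0 < T ∧ (π ^ T) u = u :=
    ⟨orderOf π, orderOf_pos π, by rw [pow_orderOf_eq_one]; rfl⟩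
  classical
  let T := Nat.find hex
  have hT : 0 < T ∧ (π ^ T) u = u := Nat.find_spec hex
  have hmin : ∀ k, 0 < k → k < T → (π ^ k) u ≠ u := by
    intro k hk hkT h
    exact Nat.find_min hex hkT ⟨hk, h⟩
  have hadd : ∀ (p q : ℕ) (x : V), (π ^ (p + q)) x = (π ^ p) ((π ^ q) x) := by
    intro p q x; rw [pow_add]; rfl
  -- parity
  rcases Nat.even_or_odd' T with ⟨s, hs | hs⟩
  · -- T = 2 s
    have hs0 : 0 < s := by omega
    have hw : σ ((π ^ s) u) = (π ^ s) u := by
      have h1 := key s u
      rw [hσu] at h1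
      have h2 : (π ^ s) ((π ^ s) u) = u := by
        rw [← hadd]
        have : s + s = T := by omega
        rw [this]; exact hT.2
      exact (π ^ s).injective (h1.trans h2.symm)
    have hwv : (π ^ s) u = v := by
      rcases (hfix _).1 hw with h | h
      · exact absurd h (hmin s hs0 (by omega))
      · exact h
    refine ⟨s - 1, fun i => (π ^ i) u, by simp, ?_, ?_, ?_⟩
    · have : s - 1 + 1 = s := by omega
      simp only [this]; exact hwv
    · intro i _
      have : (π ^ (i + 1)) u = σ (τ ((π ^ i) u)) := by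
        rw [pow_succ']; rfl
      simp only [this, hσ]
      exact hτadj _
    · intro i hi j hj hij
      have hi' : i ≤ s := by omega
      have hj' : j ≤ s := by omega
      constructor
      · intro h
        rcases Nat.lt_or_gt_of_ne hij with hlt | hlt
        · have : (π ^ (j - i)) u = u := by
            have h3 : (π ^ j) u = (π ^ i) ((π ^ (j - i)) u) := by
              rw [← hadd]; congr 2; omega
            have h4 : (π ^ i) u = (π ^ i) ((π ^ (j - i)) u) := by
              simpa [h3] using h
            exact ((π ^ i).injective h4).symm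
          exact hmin (j - i) (by omega) (by omega) this
        · have : (π ^ (i - j)) u = u := by
            have h3 : (π ^ i) u = (π ^ j) ((π ^ (i - j)) u) := by
              rw [← hadd]; congr 2; omega
            have h4 : (π ^ j) ((π ^ (i - j)) u) = (π ^ j) u := by
              rw [← h3]; exact h
            exact (π ^ j).injective h4
          exact hmin (i - j) (by omega) (by omega) this
      · intro h
        have h1 := key j u
        rw [hσu] at h1
        have h2 : (π ^ (j + i)) u = u := by
          rw [hadd]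
          have : (π ^ i) u = σ ((π ^ j) u) := h
          rw [this]; exact h1
        exact hmin (j + i) (by omega) (by omega) h2
  · -- T = 2 s + 1 : contradiction
    exfalso
    have h1 := key (s + 1) u
    rw [hσu] at h1
    have h2 : (π ^ (s + 1)) ((π ^ s) u) = u := by
      rw [← hadd]
      have : s + 1 + s = T := by omega
      rw [this]; exact hT.2
    have h3 : σ ((π ^ (s + 1)) u) = (π ^ s) u := (π ^ (s + 1)).injective (h1.trans h2.symm)
    have h4 : (π ^ (s + 1)) u = σ (τ ((π ^ s) u)) := by
      rw [pow_succ']; rfl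
    rw [h4, hσ] at h3
    have := hτadj ((π ^ s) u)
    rw [h3] at this
    exact G.loopless.irrefl _ this


lemma flip_shortcut {σ : Perm V} {u v : V} (hN : IsNP G σ u v) {l : ℕ} {a : ℕ → V}
    (hA : Aug G σ u v l a) {i j m : ℕ} (hij : i + 2 ≤ j) (hjm : j < m) (hm : m ≤ l + 1)
    (h1 : G.Adj (a i) (a j)) (h2 : G.Adj (σ (a j)) (σ (a m))) :
    ∃ l', l' < l ∧ ∃ a', Aug G σ u v l' a' := by
  obtain ⟨huv, hσ, hfix, hadj⟩ := hN
  obtain ⟨ha0, hal, hA1, hA2⟩ := hA
  obtain ⟨d, hd⟩ : ∃ d, m = i + 2 + d := ⟨m - i - 2, by omega⟩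
  have hd1 : 1 ≤ d := by omega
  refine ⟨l - d, by omega, fun t => if t ≤ i then a t else if t = i + 1 then σ (a j) else a (t + d),
    ?_, ?_, ?_, ?_⟩
  · simp [ha0]
  · have e1 : ¬ (l - d + 1 ≤ i) := by omega
    have e2 : ¬ (l - d + 1 = i + 1) := by omega
    have e3 : l - d + 1 + d = l + 1 := by omega
    simp only [e1, e2, if_false, e3]
    exact hal
  · intro t ht
    by_cases c1 : t + 1 ≤ i
    · have c2 : t ≤ i := by omega
      simp only [c1, c2, if_true]
      exact hA1 t (by omega)
    · by_cases c2 : t = i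
      · subst c2
        simp [hσ, h1]
      · by_cases c3 : t = i + 1
        · subst c3
          have e1 : ¬ (i + 1 ≤ i) := by omega
          have e2 : ¬ (i + 1 + 1 ≤ i) := by omega
          have e3 : ¬ (i + 1 + 1 = i + 1) := by omega
          have e4 : i + 1 + 1 + d = m := by omega
          simp only [e1, e2, e3, if_false, if_true, e4]
          exact h2
        · have e1 : ¬ (t ≤ i) := by omega
          have e2 : ¬ (t + 1 = i + 1) := by omega
          have e4 : t + 1 + d = t + d + 1 := by omega
          simp only [e1, c1, c3, e2, if_false, e4]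
          exact hA1 (t + d) (by omega)
  · intro t ht t' ht' htt
    have hinj : ∀ x y, σ x = σ y → x = y := fun x y h => σ.injective h
    by_cases c1 : t ≤ i
    · by_cases c1' : t' ≤ i
      · simp only [c1, c1', if_true]
        exact hA2 t (by omega) t' (by omega) htt
      · by_cases c2' : t' = i + 1
        · simp only [c1, c1', c2', if_true, if_false, hσ]
          have := hA2 t (by omega) j (by omega) (by omega)
          have e : ¬ (i + 1 ≤ i) := by omega
          simp only [e, if_false, hσ]
          exact ⟨this.2, this.1⟩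
        · simp only [c1, c1', c2', if_true, if_false]
          exact hA2 t (by omega) (t' + d) (by omega) (by omega)
    · by_cases c2 : t = i + 1
      · by_cases c1' : t' ≤ i
        · simp only [c1, c2, c1', if_true, if_false]
          have := hA2 t' (by omega) j (by omega) (by omega)
          have e : ¬ (i + 1 ≤ i) := by omega
          simp only [e, if_false]
          exact ⟨fun h => this.2 h.symm, fun h => this.1 (hinj _ _ h).symm⟩
        · have c2' : ¬ (t' = i + 1) := by omega
          simp only [c1, c2, c1', c2', if_true, if_false]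
          have := hA2 (t' + d) (by omega) j (by omega) (by omega)
          have e : ¬ (i + 1 ≤ i) := by omega
          simp only [e, if_false]
          exact ⟨fun h => this.2 h.symm, fun h => this.1 (hinj _ _ h).symm⟩
      · by_cases c1' : t' ≤ i
        · simp only [c1, c2, c1', if_true, if_false]
          exact hA2 (t + d) (by omega) t' (by omega) (by omega)
        · by_cases c2' : t' = i + 1
          · simp only [c1, c2, c1', c2', if_true, if_false, hσ]
            have := hA2 (t + d) (by omega) j (by omega) (by omega)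
            have e : ¬ (i + 1 ≤ i) := by omega
            simp only [e, if_false, hσ]
            exact ⟨this.2, this.1⟩
          · simp only [c1, c2, c1', c2', if_true, if_false]
            exact hA2 (t + d) (by omega) (t' + d) (by omega) (by omega)


lemma len_bound {σ : Perm V} {u v : V} (hN : IsNP G σ u v) {l : ℕ} {a : ℕ → V}
    (hA : Aug G σ u v l a) (hmin : ∀ l' < l, ¬ ∃ a', Aug G σ u v l' a')
    {α : ℕ} (hα : ∀ s : Finset V, G.IsIndepSet (s : Set V) → s.card ≤ α) :
    l + 2 ≤ 3 * α := by
  classical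
  have hA2 := hA.2.2.2
  have hainj : ∀ i ≤ l + 1, ∀ j ≤ l + 1, a i = a j → i = j := by
    intro i hi j hj h
    by_contra hne
    exact (hA2 i hi j hj hne).1 h
  set p : ℕ → Prop := fun j => ∃ i, i + 2 ≤ j ∧ G.Adj (a i) (a j) with hp
  set X := (Finset.range (l + 1)).filter p with hX
  set Y := (Finset.range (l + 1)).filter (fun j => ¬ p j) with hY
  set Y0 := Y.filter (fun j => j % 2 = 0) with hY0
  set Y1 := Y.filter (fun j => ¬ (j % 2 = 0)) with hY1
  have hs1 : X.card + Y.card = l + 1 := by
    have := Finset.card_filter_add_card_filter_not (s := Finset.range (l + 1)) p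
    simpa using this
  have hs2 : Y0.card + Y1.card = Y.card :=
    Finset.card_filter_add_card_filter_not (s := Y) (fun j => j % 2 = 0)
  -- the independent set coming from X
  have hcX : X.card + 1 ≤ α := by
    have hnot : (l + 1) ∉ X := by simp [hX]
    have hcard : ((insert (l + 1) X).image (fun j => σ (a j))).card = X.card + 1 := by
      rw [Finset.card_image_of_injOn, Finset.card_insert_of_notMem hnot]
      intro j hj m hm h
      have hj' : j ≤ l + 1 := by
        simp only [Finset.coe_insert, Set.mem_insert_iff, Finset.mem_coe, hX, Finset.mem_filter,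
          Finset.mem_range] at hj
        omega
      have hm' : m ≤ l + 1 := by
        simp only [Finset.coe_insert, Set.mem_insert_iff, Finset.mem_coe, hX, Finset.mem_filter,
          Finset.mem_range] at hm
        omega
      exact hainj j hj' m hm' (σ.injective h)
    rw [← hcard]
    apply hα
    have main : ∀ j ∈ insert (l + 1) X, ∀ m ∈ insert (l + 1) X, j < m →
        ¬ G.Adj (σ (a j)) (σ (a m)) := by
      intro j hj m hm hjm hadj
      have hm' : m ≤ l + 1 := by
        simp only [Finset.mem_insert, hX, Finset.mem_filter, Finset.mem_range] at hm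
        omega
      have hjX : j ∈ X := by
        rcases Finset.mem_insert.1 hj with h | h
        · omega
        · exact h
      obtain ⟨i, hi, hadj'⟩ := (Finset.mem_filter.1 hjX).2
      obtain ⟨l', hl', ha'⟩ := flip_shortcut hN hA hi hjm hm' hadj' hadj
      exact hmin l' hl' ha'
    intro x hx y hy hxy
    simp only [Finset.coe_image, Set.mem_image, Finset.mem_coe] at hx hy
    obtain ⟨j, hj, rfl⟩ := hx
    obtain ⟨m, hm, rfl⟩ := hy
    have hne : j ≠ m := by
      rintro rfl; exact hxy rfl
    rcases Nat.lt_or_gt_of_ne hne with h | h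
    · exact main j hj m hm h
    · exact fun hadj => main m hm j hj h hadj.symm
  have hcY : ∀ (q : ℕ → Prop) [DecidablePred q], (∀ j m, q j → q m → j < m → j + 2 ≤ m) →
      (Y.filter q).card ≤ α := by
    intro q _ hq
    have hcard : ((Y.filter q).image a).card = (Y.filter q).card := by
      rw [Finset.card_image_of_injOn]
      intro j hj m hm h
      have hj' : j ≤ l + 1 := by
        simp only [Finset.coe_filter, hY, Finset.mem_filter, Finset.mem_range,
          Set.mem_setOf_eq] at hj
        omega
      have hm' : m ≤ l + 1 := by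
        simp only [Finset.coe_filter, hY, Finset.mem_filter, Finset.mem_range,
          Set.mem_setOf_eq] at hm
        omega
      exact hainj j hj' m hm' h
    rw [← hcard]
    apply hα
    have main : ∀ j ∈ Y.filter q, ∀ m ∈ Y.filter q, j < m → ¬ G.Adj (a j) (a m) := by
      intro j hj m hm hjm hadj
      have hqj := (Finset.mem_filter.1 hj).2
      have hqm := (Finset.mem_filter.1 hm).2
      have hmY := (Finset.mem_filter.1 hm).1
      have hnp : ¬ p m := (Finset.mem_filter.1 hmY).2
      exact hnp ⟨j, hq j m hqj hqm hjm, hadj⟩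
    intro x hx y hy hxy
    simp only [Finset.coe_image, Set.mem_image, Finset.mem_coe] at hx hy
    obtain ⟨j, hj, rfl⟩ := hx
    obtain ⟨m, hm, rfl⟩ := hy
    have hne : j ≠ m := by
      rintro rfl; exact hxy rfl
    rcases Nat.lt_or_gt_of_ne hne with h | h
    · exact main j hj m hm h
    · exact fun hadj => main m hm j hj h hadj.symm
  have h0 : Y0.card ≤ α := hcY _ (by intro j m hj hm hjm; omega)
  have h1 : Y1.card ≤ α := hcY _ (by intro j m hj hm hjm; omega)
  omega


lemma close_isPP {σ : Perm V} {u v : V} (hN : IsNP G σ u v) (huv' : G.Adj u v) :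
    IsPP G (σ * swap u v) := by
  obtain ⟨huv, hσ, hfix, hadj⟩ := hN
  have hσu : σ u = u := (hfix u).2 (Or.inl rfl)
  have hσv : σ v = v := (hfix v).2 (Or.inr rfl)
  have hval : ∀ x, (σ * swap u v) x = if x = u then v else if x = v then u else σ x := by
    intro x
    by_cases h1 : x = u
    · subst h1; simp [hσv]
    · by_cases h2 : x = v
      · subst h2; simp [hσu, h1]
      · simp [h1, h2, swap_apply_of_ne_of_ne h1 h2]
  constructor
  · intro x
    by_cases h1 : x = u
    · subst h1
      rw [hval x, if_pos rfl, hval v, if_neg (Ne.symm huv), if_pos rfl]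
    · by_cases h2 : x = v
      · subst h2
        rw [hval x, if_neg h1, if_pos rfl, hval u, if_pos rfl]
      · have h3 : σ x ≠ u := by
          intro h; apply h1; rw [← hσ x, h, hσu]
        have h4 : σ x ≠ v := by
          intro h; apply h2; rw [← hσ x, h, hσv]
        rw [hval x, if_neg h1, if_neg h2, hval (σ x), if_neg h3, if_neg h4, hσ]
  · intro x
    by_cases h1 : x = u
    · subst h1
      rw [hval x, if_pos rfl]; exact huv'
    · by_cases h2 : x = v
      · subst h2
        rw [hval x, if_neg h1, if_pos rfl]; exact huv'.symm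
      · rw [hval x, if_neg h1, if_neg h2]
        apply hadj
        intro h
        rcases (hfix x).1 h with h | h
        · exact h1 h
        · exact h2 h

lemma slide_step {σ : Perm V} {u v : V} (hN : IsNP G σ u v) {l : ℕ} {a : ℕ → V}
    (hA : Aug G σ u v (l + 1) a) :
    IsNP G (swap u (a 1) * σ * swap u (a 1)) (a 1) v ∧
      Aug G (swap u (a 1) * σ * swap u (a 1)) (a 1) v l (fun i => a (i + 1)) := by
  obtain ⟨huv, hσ, hfix, hadj⟩ := hN
  obtain ⟨ha0, hal, hA1, hA2⟩ := hA
  have hσu : σ u = u := (hfix u).2 (Or.inl rfl)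
  have hσv : σ v = v := (hfix v).2 (Or.inr rfl)
  set b := a 1 with hb
  have h01 := hA2 0 (by omega) 1 (by omega) (by omega)
  rw [ha0] at h01
  have hub : u ≠ b := h01.1
  have huσb : u ≠ σ b := h01.2
  have hbv : b ≠ v := by
    have := (hA2 1 (by omega) (l + 1 + 1) (by omega) (by omega)).1
    rwa [hal] at this
  have hσb : σ b ≠ b := by
    intro h
    rcases (hfix b).1 h with h | h
    · exact hub h.symm
    · exact hbv h
  set σ1 : Perm V := swap u b * σ * swap u b with hσ1
  have hv1 : ∀ y, σ1 y = swap u b (σ (swap u b y)) := fun y => rfl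
  have hσ1b : σ1 b = b := by
    rw [hv1, swap_apply_right, hσu, swap_apply_left]
  have hσ1u : σ1 u = σ b := by
    rw [hv1, swap_apply_left, swap_apply_of_ne_of_ne (Ne.symm huσb) hσb]
  have hσ1σb : σ1 (σ b) = u := by
    rw [hv1, swap_apply_of_ne_of_ne (Ne.symm huσb) hσb, hσ, swap_apply_right]
  have hother : ∀ y, y ≠ u → y ≠ b → y ≠ σ b → σ1 y = σ y := by
    intro y h1 h2 h3
    rw [hv1, swap_apply_of_ne_of_ne h1 h2]
    apply swap_apply_of_ne_of_ne
    · intro h; apply h1; rw [← hσ y, h, hσu]
    · intro h; apply h3; rw [← h, hσ]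
  have hinv : ∀ y, σ1 (σ1 y) = y := by
    intro y
    simp only [hv1, swap_apply_self, hσ]
  refine ⟨⟨hbv, hinv, ?_, ?_⟩, rfl, hal, ?_, ?_⟩
  · intro y
    by_cases h1 : y = u
    · subst h1
      rw [hσ1u]
      constructor
      · intro h; exact absurd h.symm huσb
      · rintro (h | h)
        · exact absurd h hub
        · exact absurd h huv
    · by_cases h2 : y = b
      · rw [h2]; simp [hσ1b]
      · by_cases h3 : y = σ b
        · rw [h3, hσ1σb]
          constructor
          · intro h; exact absurd h huσb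
          · rintro (h | h)
            · exact absurd h hσb
            · exfalso
              apply hbv
              rw [← hσ b, h, hσv]
        · rw [hother y h1 h2 h3, hfix]
          constructor
          · rintro (h | h)
            · exact absurd h h1
            · exact Or.inr h
          · rintro (h | h)
            · exact absurd h h2
            · exact Or.inr h
  · intro y hy
    by_cases h1 : y = u
    · subst h1
      rw [hσ1u]
      have := hA1 0 (by omega)
      rwa [ha0] at this
    · by_cases h2 : y = b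
      · rw [h2] at hy; exact absurd hσ1b hy
      · by_cases h3 : y = σ b
        · rw [h3, hσ1σb]
          have := hA1 0 (by omega)
          rw [ha0] at this
          exact this.symm
        · rw [hother y h1 h2 h3] at hy ⊢
          exact hadj y hy
  · intro i hi
    have e1 := hA2 (i + 1 + 1) (by omega) 0 (by omega) (by omega)
    have e2 := hA2 (i + 1 + 1) (by omega) 1 (by omega) (by omega)
    rw [ha0] at e1
    show G.Adj (a (i + 1)) (σ1 (a (i + 1 + 1)))
    rw [hother _ e1.1 e2.1 e2.2]
    exact hA1 (i + 1) (by omega)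
  · intro i hi j hj hij
    have e0 := hA2 (i + 1) (by omega) (j + 1) (by omega) (by omega)
    refine ⟨e0.1, ?_⟩
    show a (i + 1) ≠ σ1 (a (j + 1))
    rcases Nat.eq_zero_or_pos j with hj0 | hj0
    · subst hj0
      show a (i + 1) ≠ σ1 b
      rw [hσ1b]
      exact e0.1
    · have e1 := hA2 (j + 1) (by omega) 0 (by omega) (by omega)
      have e2 := hA2 (j + 1) (by omega) 1 (by omega) (by omega)
      rw [ha0] at e1
      rw [hother _ e1.1 e2.1 e2.2]
      exact e0.2


variable (G)

/-- all coded perfect matchings -/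
def PPset : Set (Perm V) := {τ | IsPP G τ}

/-- all coded near-perfect matchings with ordered holes -/
def NPset : Set (Perm V × V × V) := {s | IsNP G s.1 s.2.1 s.2.2}

/-- those admitting an augmenting sequence of parameter `l` -/
def Tset (l : ℕ) : Set (Perm V × V × V) :=
  {s | IsNP G s.1 s.2.1 s.2.2 ∧ ∃ a, Aug G s.1 s.2.1 s.2.2 l a}

variable {G}

lemma card_Tset (l : ℕ) :
    (Tset G l).ncard ≤ (Fintype.card V) ^ (l + 1) * (PPset G).ncard := by
  induction l with
  | zero =>
    let g : V × Perm V → Perm V × V × V := fun q => (q.2 * swap q.1 (q.2 q.1), q.1, q.2 q.1)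
    have hsub : Tset G 0 ⊆ g '' ((Set.univ : Set V) ×ˢ PPset G) := by
      rintro ⟨σ, u, v⟩ ⟨hN, a, hA⟩
      have hN' : IsNP G σ u v := hN
      have hA' : Aug G σ u v 0 a := hA
      obtain ⟨ha0, hal, hA1, hA2⟩ := hA'
      have hσv : σ v = v := (hN'.2.2.1 v).2 (Or.inr rfl)
      have hadj : G.Adj u v := by
        have := hA1 0 le_rfl
        rw [ha0] at this
        have e : a (0 + 1) = v := hal
        rwa [e, hσv] at this
      refine ⟨(u, σ * swap u v), ⟨Set.mem_univ _, close_isPP hN' hadj⟩, ?_⟩
      have e1 : (σ * swap u v) u = v := by simp [hσv]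
      simp only [g, e1, mul_assoc, swap_mul_self, mul_one]
    calc (Tset G 0).ncard ≤ (g '' ((Set.univ : Set V) ×ˢ PPset G)).ncard :=
          Set.ncard_le_ncard hsub (Set.toFinite _)
      _ ≤ ((Set.univ : Set V) ×ˢ PPset G).ncard := Set.ncard_image_le (Set.toFinite _)
      _ = (Fintype.card V) ^ (0 + 1) * (PPset G).ncard := by
          rw [Set.ncard_prod, Set.ncard_univ, Nat.card_eq_fintype_card]; simp
  | succ l ih =>
    let g : V × (Perm V × V × V) → Perm V × V × V :=
      fun q => (swap q.1 q.2.2.1 * q.2.1 * swap q.1 q.2.2.1, q.1, q.2.2.2)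
    have hsub : Tset G (l + 1) ⊆ g '' ((Set.univ : Set V) ×ˢ Tset G l) := by
      rintro ⟨σ, u, v⟩ ⟨hN, a, hA⟩
      have hN' : IsNP G σ u v := hN
      have hA' : Aug G σ u v (l + 1) a := hA
      obtain ⟨h1, h2⟩ := slide_step hN' hA'
      refine ⟨(u, (swap u (a 1) * σ * swap u (a 1), a 1, v)), ⟨Set.mem_univ _, h1, _, h2⟩, ?_⟩
      simp only [g]
      have : swap u (a 1) * (swap u (a 1) * σ * swap u (a 1)) * swap u (a 1) = σ := by
        simp only [mul_assoc, swap_mul_self, mul_one]
        rw [← mul_assoc, swap_mul_self, one_mul]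
      rw [this]
    calc (Tset G (l + 1)).ncard ≤ (g '' ((Set.univ : Set V) ×ˢ Tset G l)).ncard :=
          Set.ncard_le_ncard hsub (Set.toFinite _)
      _ ≤ ((Set.univ : Set V) ×ˢ Tset G l).ncard := Set.ncard_image_le (Set.toFinite _)
      _ = Fintype.card V * (Tset G l).ncard := by
          rw [Set.ncard_prod, Set.ncard_univ, Nat.card_eq_fintype_card]
      _ ≤ Fintype.card V * ((Fintype.card V) ^ (l + 1) * (PPset G).ncard) :=
          Nat.mul_le_mul_left _ ih
      _ = (Fintype.card V) ^ (l + 1 + 1) * (PPset G).ncard := by ring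

lemma card_NPset {α : ℕ} (hα : ∀ s : Finset V, G.IsIndepSet (s : Set V) → s.card ≤ α)
    (hP : (PPset G).Nonempty) :
    (NPset G).ncard ≤ (Fintype.card V) ^ (3 * α) * (PPset G).ncard := by
  classical
  obtain ⟨τ, hτ⟩ := hP
  by_cases hV : 2 ≤ Fintype.card V
  · have hsub : NPset G ⊆ ⋃ l ∈ Finset.range (3 * α - 1), Tset G l := by
      rintro ⟨σ, u, v⟩ hN
      have hN' : IsNP G σ u v := hN
      have hex : ∃ l, ∃ a, Aug G σ u v l a := exists_aug hN' hτ
      obtain ⟨a, ha⟩ := Nat.find_spec hex
      have hmin : ∀ l' < Nat.find hex, ¬ ∃ a', Aug G σ u v l' a' := fun l' hl' => Nat.find_min hex hl'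
      have hb := len_bound hN' ha hmin hα
      simp only [Set.mem_iUnion, Finset.mem_range]
      exact ⟨Nat.find hex, by omega, hN', a, ha⟩
    calc (NPset G).ncard ≤ (⋃ l ∈ Finset.range (3 * α - 1), Tset G l).ncard :=
          Set.ncard_le_ncard hsub (Set.toFinite _)
      _ ≤ ∑ l ∈ Finset.range (3 * α - 1), (Tset G l).ncard := Finset.set_ncard_biUnion_le _ _
      _ ≤ ∑ l ∈ Finset.range (3 * α - 1), (Fintype.card V) ^ (l + 1) * (PPset G).ncard :=
          Finset.sum_le_sum (fun l _ => card_Tset l)
      _ = (∑ l ∈ Finset.range (3 * α - 1), (Fintype.card V) ^ (l + 1)) * (PPset G).ncard := by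
          rw [Finset.sum_mul]
      _ ≤ (Fintype.card V) ^ (3 * α) * (PPset G).ncard := by
          apply Nat.mul_le_mul_right
          have h1 : ∑ l ∈ Finset.range (3 * α - 1), (Fintype.card V) ^ (l + 1)
              = ∑ k ∈ (Finset.range (3 * α - 1)).image (fun l => l + 1), (Fintype.card V) ^ k := by
            rw [Finset.sum_image]
            intro x _ y _ h
            simpa using h
          rw [h1]
          apply le_of_lt
          apply Nat.geomSum_lt hV
          intro k hk
          simp only [Finset.mem_image, Finset.mem_range] at hk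
          obtain ⟨l, hl, rfl⟩ := hk
          omega
  · have hempty : NPset G = ∅ := by
      ext ⟨σ, u, v⟩
      simp only [Set.mem_empty_iff_false, iff_false]
      intro hN
      have hN' : IsNP G σ u v := hN
      apply hV
      have : (({u, v} : Finset V)).card ≤ Fintype.card V := Finset.card_le_univ _
      rwa [Finset.card_pair hN'.1] at this
    rw [hempty]; simp


variable (G)

/-- the subgraph coded by a permutation -/
def toSub (σ : Perm V) : G.Subgraph where
  verts := {x | σ x ≠ x}
  Adj x y := σ x = y ∧ σ y = x ∧ G.Adj x y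
  adj_sub := fun h => h.2.2
  edge_vert := fun {x y} h => by
    show σ x ≠ x
    rw [h.1]; exact (G.ne_of_adj h.2.2).symm
  symm := ⟨fun _ _ h => ⟨h.2.1, h.1, h.2.2.symm⟩⟩

variable {G}

lemma exists_perm_of_isMatching {M : G.Subgraph} (hM : M.IsMatching) :
    ∃ σ : Perm V, (∀ x, σ (σ x) = x) ∧ (∀ x, σ x ≠ x ↔ x ∈ M.verts) ∧
      (∀ x, x ∈ M.verts → M.Adj x (σ x)) ∧ toSub G σ = M := by
  classical
  let f : V → V := fun x => if h : x ∈ M.verts then (hM h).choose else x
  have hf1 : ∀ x (h : x ∈ M.verts), M.Adj x (f x) := by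
    intro x h
    simp only [f, dif_pos h]
    exact (hM h).choose_spec.1
  have hf2 : ∀ x, x ∉ M.verts → f x = x := by
    intro x h
    simp only [f, dif_neg h]
  have huniq : ∀ x y, M.Adj x y → f x = y := by
    intro x y h
    exact hM.eq_of_adj_left (hf1 x (M.edge_vert h)) h
  have hinv : Function.Involutive f := by
    intro x
    by_cases h : x ∈ M.verts
    · exact huniq _ _ (hf1 x h).symm
    · rw [hf2 x h, hf2 x h]
  have hne : ∀ x, f x ≠ x ↔ x ∈ M.verts := by
    intro x
    constructor
    · intro h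
      by_contra hx
      exact h (hf2 x hx)
    · intro h
      exact (M.adj_sub (hf1 x h)).ne'
  refine ⟨hinv.toPerm f, hinv, hne, hf1, ?_⟩
  ext x y
  · exact hne x
  · show (f x = y ∧ f y = x ∧ G.Adj x y) ↔ M.Adj x y
    constructor
    · rintro ⟨h1, _, h3⟩
      have hx : x ∈ M.verts := (hne x).1 (by rw [h1]; exact h3.ne')
      rw [← h1]; exact hf1 x hx
    · intro h
      exact ⟨huniq _ _ h, huniq _ _ h.symm, M.adj_sub h⟩

lemma toSub_isPerfectMatching {τ : Perm V} (hτ : IsPP G τ) : (toSub G τ).IsPerfectMatching := by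
  rw [SimpleGraph.Subgraph.isPerfectMatching_iff]
  intro x
  exact ⟨τ x, ⟨rfl, hτ.1 x, hτ.2 x⟩, fun y hy => hy.1.symm⟩

lemma card_PPset_le :
    (PPset G).ncard ≤ {M : G.Subgraph | M.IsPerfectMatching}.ncard := by
  apply Set.ncard_le_ncard_of_injOn (toSub G) (fun τ hτ => toSub_isPerfectMatching hτ) _
    (Set.toFinite _)
  intro τ1 h1 τ2 _ h
  ext x
  have e : (toSub G τ1).Adj x (τ1 x) := ⟨rfl, h1.1 x, h1.2 x⟩
  rw [h] at e
  exact e.1.symm

lemma PPset_nonempty (h : ∃ M : G.Subgraph, M.IsPerfectMatching) : (PPset G).Nonempty := by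
  obtain ⟨M, hM⟩ := h
  obtain ⟨σ, h1, _, h3, _⟩ := exists_perm_of_isMatching hM.1
  exact ⟨σ, h1, fun x => M.adj_sub (h3 x (hM.2 x))⟩

lemma card_NPM_le :
    {M : G.Subgraph | M.IsMatching ∧ (M.vertsᶜ).ncard = 2}.ncard ≤ (NPset G).ncard := by
  have hsub : {M : G.Subgraph | M.IsMatching ∧ (M.vertsᶜ).ncard = 2} ⊆
      (fun s : Perm V × V × V => toSub G s.1) '' NPset G := by
    rintro M ⟨hM, hc⟩
    obtain ⟨u, v, huv, hset⟩ := Set.ncard_eq_two.1 hc
    obtain ⟨σ, h1, h2, h3, h4⟩ := exists_perm_of_isMatching hM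
    refine ⟨(σ, u, v), ⟨huv, h1, ?_, ?_⟩, h4⟩
    · intro x
      have : x ∈ M.vertsᶜ ↔ x = u ∨ x = v := by rw [hset]; simp
      rw [← this, Set.mem_compl_iff, ← h2 x, not_not]
    · intro x hx
      exact M.adj_sub (h3 x ((h2 x).1 hx))
  calc _ ≤ ((fun s : Perm V × V × V => toSub G s.1) '' NPset G).ncard :=
        Set.ncard_le_ncard hsub (Set.toFinite _)
    _ ≤ (NPset G).ncard := Set.ncard_image_le (Set.toFinite _)

theorem ratio_bound (a : ℕ) (hα : G.indepNum ≤ a)
    (hpm : ∃ M : G.Subgraph, M.IsPerfectMatching) :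
    {M : G.Subgraph | M.IsMatching ∧ (M.vertsᶜ).ncard = 2}.ncard ≤
      (Fintype.card V) ^ (3 * a) * {M : G.Subgraph | M.IsPerfectMatching}.ncard := by
  have hα' : ∀ s : Finset V, G.IsIndepSet (s : Set V) → s.card ≤ a :=
    fun s hs => hs.card_le_indepNum.trans hα
  calc _ ≤ (NPset G).ncard := card_NPM_le
    _ ≤ (Fintype.card V) ^ (3 * a) * (PPset G).ncard := card_NPset hα' (PPset_nonempty hpm)
    _ ≤ _ := Nat.mul_le_mul_left _ card_PPset_le

end Vale.Agent.P308
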